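import Mathlib
import Vale.Agent.Lib.P058.Defs

/-!
# P058: the four complex points of the kite (pool piece J6)
-/

namespace Vale.Agent.Lib.P058.H16

open Vale.Agent.Lib.P058

/-- The algebraic relation between the four points. -/
theorem kp_relation (w1 w2 : ℂ) (t : ℝ) (h1 : Complex.normSq w1 = 1)
    (h2 : Complex.normSq w2 = 1)
    (ht : (1 + t) * Complex.normSq (w1 - 1) = (1 - t) * Complex.normSq (w2 - 1)) :
    w1 * ((starRingEnd ℂ) w1 - w2 - 2 * (t : ℂ)) +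
        w2 * (starRingEnd ℂ) ((starRingEnd ℂ) w1 - w2 - 2 * (t : ℂ)) =
      (1 + (t : ℂ)) * ((starRingEnd ℂ) w1 - w2 - 2 * (t : ℂ)) +
        (1 - (t : ℂ)) * (starRingEnd ℂ) ((starRingEnd ℂ) w1 - w2 - 2 * (t : ℂ)) := by
  rw [Complex.normSq_apply] at h1 h2
  rw [Complex.normSq_apply, Complex.normSq_apply] at ht
  simp only [Complex.sub_re, Complex.sub_im, Complex.one_re, Complex.one_im, sub_zero] at ht
  have ht' : (1 + t) * (2 - 2 * w1.re) = (1 - t) * (2 - 2 * w2.re) := by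
    linear_combination ht - (1 + t) * h1 + (1 - t) * h2
  apply Complex.ext
  · simp only [Complex.add_re, Complex.mul_re, Complex.sub_re, Complex.sub_im, Complex.conj_re,
      Complex.conj_im, Complex.ofReal_re, Complex.ofReal_im, Complex.one_re, Complex.one_im,
      Complex.re_ofNat, Complex.im_ofNat, Complex.mul_im, Complex.add_im]
    linear_combination h1 - h2 + ht'
  · simp only [Complex.add_re, Complex.mul_re, Complex.sub_re, Complex.sub_im, Complex.conj_re,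
      Complex.conj_im, Complex.ofReal_re, Complex.ofReal_im, Complex.one_re, Complex.one_im,
      Complex.re_ofNat, Complex.im_ofNat, Complex.mul_im, Complex.add_im]
    ring

/-- The point `exp (2 π i m / n)` is an `n`-th root of unity. -/
theorem kp_root (n m : ℕ) (hn : 0 < n) (α : ℝ) (hα : α = Real.pi * m / n) :
    Complex.exp (((2 * α : ℝ) : ℂ) * Complex.I) ^ n = 1 := by
  have hnC : (n : ℂ) ≠ 0 := by exact_mod_cast hn.ne'
  rw [← Complex.exp_nat_mul]
  have h : (n : ℂ) * (((2 * α : ℝ) : ℂ) * Complex.I) = (m : ℂ) * (2 * Real.pi * Complex.I) := by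
    rw [hα]
    push_cast
    field_simp
  rw [h]
  exact Complex.exp_nat_mul_two_pi_mul_I m

theorem kp_normSq (θ : ℝ) : Complex.normSq (Complex.exp ((θ : ℂ) * Complex.I)) = 1 := by
  rw [Complex.normSq_apply, Complex.exp_ofReal_mul_I_re, Complex.exp_ofReal_mul_I_im]
  linear_combination Real.cos_sq_add_sin_sq θ

theorem kp_normSq_sub (α : ℝ) :
    Complex.normSq (Complex.exp (((2 * α : ℝ) : ℂ) * Complex.I) - 1) = 4 * Real.sin α ^ 2 := by
  rw [Complex.normSq_apply]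
  simp only [Complex.sub_re, Complex.sub_im, Complex.one_re, Complex.one_im, sub_zero,
    Complex.exp_ofReal_mul_I_re, Complex.exp_ofReal_mul_I_im]
  rw [Real.cos_two_mul, Real.sin_two_mul]
  linear_combination (4 * Real.cos α ^ 2 - 4) * Real.sin_sq_add_cos_sq α

/-- Angle bounds. -/
theorem kp_angle (n m : ℕ) (hn : 0 < n) (α : ℝ) (hα : α = Real.pi * m / n) :
    (0 < m → 0 < α) ∧ (2 * m ≤ n → 2 * α ≤ Real.pi) ∧ (2 * m < n → 2 * α < Real.pi) := by
  have hnR : (0 : ℝ) < n := by exact_mod_cast hn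
  have e : 2 * α = Real.pi * (2 * (m : ℝ) / n) := by
    rw [hα]
    ring
  refine ⟨fun hm => ?_, fun h => ?_, fun h => ?_⟩
  · have hmR : (0 : ℝ) < m := by exact_mod_cast hm
    rw [hα]
    have := Real.pi_pos
    positivity
  · have h1 : (2 * (m : ℝ)) / n ≤ 1 := by
      rw [div_le_one hnR]
      exact_mod_cast h
    rw [e]
    calc Real.pi * (2 * (m : ℝ) / n) ≤ Real.pi * 1 :=
          mul_le_mul_of_nonneg_left h1 Real.pi_pos.le
      _ = Real.pi := mul_one _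
  · have h1 : (2 * (m : ℝ)) / n < 1 := by
      rw [div_lt_one hnR]
      exact_mod_cast h
    rw [e]
    calc Real.pi * (2 * (m : ℝ) / n) < Real.pi * 1 :=
          mul_lt_mul_of_pos_left h1 Real.pi_pos
      _ = Real.pi := mul_one _

theorem kite_points (n j k : ℕ) (hj : 0 < j) (hk : 0 < k) (hjn : 2 * j ≤ n) (hkn : 2 * k ≤ n)
    (hjk : j + k < n) :
    ∃ (a b c d : ℂ) (t : ℝ), b ∈ Dorb n a ∧ c ∈ Dorb n a ∧ d ∈ Dorb n a ∧ a ≠ c ∧
      Complex.normSq b = Complex.normSq a ∧ Complex.normSq c = Complex.normSq a ∧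
      Complex.normSq d = Complex.normSq a ∧
      b + d = (1 + (t : ℂ)) * a + (1 - (t : ℂ)) * c ∧
      (1 + t) * Real.sin (Real.pi * j / n) ^ 2 = (1 - t) * Real.sin (Real.pi * k / n) ^ 2 := by
  have hn : 0 < n := by omega
  obtain ⟨α, hα⟩ : ∃ α : ℝ, α = Real.pi * j / n := ⟨_, rfl⟩
  obtain ⟨β, hβ⟩ : ∃ β : ℝ, β = Real.pi * k / n := ⟨_, rfl⟩
  rw [← hα, ← hβ]
  obtain ⟨a0, a1, a2⟩ := kp_angle n j hn α hα
  obtain ⟨b0, b1, b2⟩ := kp_angle n k hn β hβ
  have hα0 := a0 hj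
  have hβ0 := b0 hk
  have hα1 := a1 hjn
  have hβ1 := b1 hkn
  have hsα : 0 < Real.sin α :=
    Real.sin_pos_of_pos_of_lt_pi hα0 (by linarith [Real.pi_pos])
  have hsβ : 0 < Real.sin β :=
    Real.sin_pos_of_pos_of_lt_pi hβ0 (by linarith [Real.pi_pos])
  have hS : 0 < Real.sin α ^ 2 + Real.sin β ^ 2 := by positivity
  obtain ⟨t, ht_def⟩ : ∃ t : ℝ,
      t = (Real.sin β ^ 2 - Real.sin α ^ 2) / (Real.sin α ^ 2 + Real.sin β ^ 2) := ⟨_, rfl⟩
  have hlast : (1 + t) * Real.sin α ^ 2 = (1 - t) * Real.sin β ^ 2 := by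
    rw [ht_def]
    field_simp
    ring
  obtain ⟨w1, hw1⟩ : ∃ w1 : ℂ, w1 = Complex.exp (((2 * α : ℝ) : ℂ) * Complex.I) := ⟨_, rfl⟩
  obtain ⟨w2, hw2⟩ : ∃ w2 : ℂ, w2 = Complex.exp (((2 * β : ℝ) : ℂ) * Complex.I) := ⟨_, rfl⟩
  have hw1n : w1 ^ n = 1 := by
    rw [hw1]
    exact kp_root n j hn α hα
  have hw2n : w2 ^ n = 1 := by
    rw [hw2]
    exact kp_root n k hn β hβ
  have h1 : Complex.normSq w1 = 1 := by
    rw [hw1]
    exact kp_normSq _
  have h2 : Complex.normSq w2 = 1 := by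
    rw [hw2]
    exact kp_normSq _
  have ht : (1 + t) * Complex.normSq (w1 - 1) = (1 - t) * Complex.normSq (w2 - 1) := by
    rw [hw1, hw2, kp_normSq_sub, kp_normSq_sub]
    linear_combination 4 * hlast
  have him1 : w1.im = Real.sin (2 * α) := by
    rw [hw1]
    exact Complex.exp_ofReal_mul_I_im _
  have him2 : w2.im = Real.sin (2 * β) := by
    rw [hw2]
    exact Complex.exp_ofReal_mul_I_im _
  have hs1 : 0 ≤ Real.sin (2 * α) :=
    Real.sin_nonneg_of_nonneg_of_le_pi (by linarith) hα1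
  have hs2 : 0 ≤ Real.sin (2 * β) :=
    Real.sin_nonneg_of_nonneg_of_le_pi (by linarith) hβ1
  have hpos : 0 < Real.sin (2 * α) + Real.sin (2 * β) := by
    rcases Nat.lt_or_ge (2 * j) n with hlt | hge
    · have := Real.sin_pos_of_pos_of_lt_pi (by linarith : 0 < 2 * α) (a2 hlt)
      linarith
    · have hlt : 2 * k < n := by omega
      have := Real.sin_pos_of_pos_of_lt_pi (by linarith : 0 < 2 * β) (b2 hlt)
      linarith
  have hac : (starRingEnd ℂ) w1 - w2 - 2 * (t : ℂ) ≠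
      (starRingEnd ℂ) ((starRingEnd ℂ) w1 - w2 - 2 * (t : ℂ)) := by
    intro h
    have h3 := congrArg Complex.im h
    simp only [Complex.sub_im, Complex.conj_im, Complex.mul_im, Complex.re_ofNat,
      Complex.im_ofNat, Complex.ofReal_im, Complex.ofReal_re, him1, him2] at h3
    linarith
  refine ⟨(starRingEnd ℂ) w1 - w2 - 2 * (t : ℂ),
    w1 * ((starRingEnd ℂ) w1 - w2 - 2 * (t : ℂ)),
    (starRingEnd ℂ) ((starRingEnd ℂ) w1 - w2 - 2 * (t : ℂ)),
    w2 * (starRingEnd ℂ) ((starRingEnd ℂ) w1 - w2 - 2 * (t : ℂ)), t,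
    ⟨w1, hw1n, Or.inl rfl⟩, ⟨1, one_pow n, Or.inr (one_mul _).symm⟩, ⟨w2, hw2n, Or.inr rfl⟩,
    hac, ?_, Complex.normSq_conj _, ?_, kp_relation w1 w2 t h1 h2 ht, hlast⟩
  · rw [Complex.normSq_mul, h1, one_mul]
  · rw [Complex.normSq_mul, h2, one_mul, Complex.normSq_conj]

end Vale.Agent.Lib.P058.H16
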